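import Mathlib

/-!
Orthonormal frames of planes and the volume of upright cylinders in three-space.
-/

namespace Vale.Agent.P237

open MeasureTheory Set
open scoped RealInnerProductSpace

/-- The plane. -/
abbrev E2 := EuclideanSpace ℝ (Fin 2)

/-- Three-space. -/
abbrev E3 := EuclideanSpace ℝ (Fin 3)

/-- The coordinates of a plane with respect to two vectors. -/
noncomputable def coords {V : Type*} [NormedAddCommGroup V] [InnerProductSpace ℝ V] (a b : V)
    (v : V) : E2 := !₂[⟪a, v⟫, ⟪b, v⟫]

theorem continuous_coords {V : Type*} [NormedAddCommGroup V] [InnerProductSpace ℝ V] (a b : V) :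
    Continuous (coords a b) := by
  unfold coords
  fun_prop

/-- Two orthonormal vectors of a plane give volume preserving coordinates. -/
theorem frame {V : Type*} [NormedAddCommGroup V] [InnerProductSpace ℝ V] [FiniteDimensional ℝ V]
    [MeasurableSpace V] [BorelSpace V] (hV : Module.finrank ℝ V = 2) {a b : V} (ha : ‖a‖ = 1)
    (hb : ‖b‖ = 1) (hab : ⟪a, b⟫ = 0) :
    MeasurePreserving (coords a b) ∧ Function.Injective (coords a b) := by
  have hon : Orthonormal ℝ ![a, b] := by
    refine ⟨fun i => ?_, fun i j hij => ?_⟩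
    · fin_cases i <;> simpa
    · fin_cases i <;> fin_cases j <;> simp_all [real_inner_comm a b]
  have hsp : ⊤ ≤ Submodule.span ℝ (Set.range ![a, b]) := by
    rw [hon.linearIndependent.span_eq_top_of_card_eq_finrank (by simp [hV])]
  let B := OrthonormalBasis.mk hon hsp
  have he : coords a b = (B.repr : V → E2) := by
    funext v
    ext i
    rw [OrthonormalBasis.repr_apply_apply, OrthonormalBasis.coe_mk]
    fin_cases i <;> simp [coords]
  rw [he]
  exact ⟨B.measurePreserving_repr, B.repr.injective⟩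

/-- The plane as a product. -/
theorem measurePreserving_pair :
    MeasurePreserving (fun v : E2 => ((v 0, v 1) : ℝ × ℝ)) :=
  (volume_preserving_finTwoArrow ℝ).comp (PiLp.volume_preserving_ofLp (Fin 2))

/-- The upright cylinder over a set. -/
def cyl (B : Set E2) (c d : ℝ) : Set E3 := {x | !₂[x 0, x 1] ∈ B ∧ x 2 ∈ Icc c d}

theorem volume_cyl {B : Set E2} (hB : MeasurableSet B) (c d : ℝ) :
    volume (cyl B c d) = volume B * ENNReal.ofReal (d - c) := by
  have h1 := PiLp.volume_preserving_ofLp (Fin 3)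
  have h2 := volume_preserving_piFinSuccAbove (fun _ : Fin 3 => ℝ) 2
  have h3 := PiLp.volume_preserving_toLp (Fin 2)
  have hm : MeasurableSet (WithLp.toLp 2 ⁻¹' B : Set (Fin 2 → ℝ)) := h3.measurable hB
  have e : cyl B c d = ((MeasurableEquiv.piFinSuccAbove (fun _ : Fin 3 => ℝ) 2) ∘
      (WithLp.ofLp : E3 → Fin 3 → ℝ)) ⁻¹' (Icc c d ×ˢ (WithLp.toLp 2 ⁻¹' B)) := by
    ext x
    have hv : WithLp.toLp 2 (Fin.removeNth 2 (WithLp.ofLp x)) = !₂[x 0, x 1] := by
      ext i
      fin_cases i <;> rfl
    simp [cyl, MeasurableEquiv.piFinSuccAbove_apply, Fin.insertNthEquiv, hv, and_comm]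
  rw [e, (h2.comp h1).measure_preimage (measurableSet_Icc.prod hm).nullMeasurableSet,
    Measure.volume_eq_prod, Measure.prod_prod, Real.volume_Icc,
    h3.measure_preimage hB.nullMeasurableSet, mul_comm]

theorem isCompact_cyl {B : Set E2} (hB : IsCompact B) (c d : ℝ) : IsCompact (cyl B c d) := by
  have e : cyl B c d = (fun p : E2 × ℝ => (!₂[p.1 0, p.1 1, p.2] : E3)) '' (B ×ˢ Icc c d) := by
    ext x
    constructor
    · rintro ⟨h1, h2⟩
      refine ⟨(!₂[x 0, x 1], x 2), ⟨h1, h2⟩, ?_⟩
      ext i
      fin_cases i <;> simp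
    · rintro ⟨⟨v, z⟩, ⟨hv, hz⟩, rfl⟩
      refine ⟨?_, by simpa using hz⟩
      convert hv using 1
      ext i
      fin_cases i <;> simp
  rw [e]
  exact (hB.prod isCompact_Icc).image (by fun_prop)

end Vale.Agent.P237
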