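import Vale.Agent.P237.Slice

/-!
The projection body of an upright cylinder in three-space.
-/

namespace Vale.Agent.P237

open MeasureTheory Set
open scoped RealInnerProductSpace ENNReal Pointwise

/-- The volume of the orthogonal projection of a set to the hyperplane orthogonal to `u`. -/
noncomputable def area {E : Type*} [NormedAddCommGroup E] [InnerProductSpace ℝ E]
    [FiniteDimensional ℝ E] [MeasurableSpace E] [BorelSpace E] (K : Set E) (u : E) : ℝ :=
  volume.real ((ℝ ∙ u)ᗮ.orthogonalProjectionOnto '' K)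

/-- The body with the projection areas as support bounds. -/
def projBody {E : Type*} [NormedAddCommGroup E] [InnerProductSpace ℝ E]
    [FiniteDimensional ℝ E] [MeasurableSpace E] [BorelSpace E] (K : Set E) : Set E :=
  {y | ∀ u : E, ‖u‖ = 1 → ⟪y, u⟫ ≤ area K u}

/-- Lower bound for the projection areas of an upright cylinder. -/
theorem area_ge {L : Set E2} (hL : IsCompact L) (hLc : Convex ℝ L) {c d : ℝ} (hcd : c ≤ d)
    {u : E3} (hu : ‖u‖ = 1) {x y : E2} (hx : x ∈ L) (hy : y ∈ L) :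
    |u 2| * volume.real L + (d - c) * |(y 0 - x 0) * u 1 - (y 1 - x 1) * u 0|
      ≤ area (cyl L c d) u := by
  have hu0 : u ≠ 0 := norm_ne_zero_iff.1 (by simp [hu])
  have hu2 : u 0 ^ 2 + u 1 ^ 2 + u 2 ^ 2 = 1 := by
    have := EuclideanSpace.real_norm_sq_eq u
    simpa [hu, Fin.sum_univ_three] using this.symm
  obtain ⟨p, q, r, hpq, h0, h1⟩ : ∃ p q r : ℝ, p ^ 2 + q ^ 2 = 1 ∧ u 0 = r * q ∧ u 1 = -(r * p) := by
    have hr2 : √(u 0 ^ 2 + u 1 ^ 2) ^ 2 = u 0 ^ 2 + u 1 ^ 2 := Real.sq_sqrt (by positivity)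
    generalize √(u 0 ^ 2 + u 1 ^ 2) = r at hr2
    rcases eq_or_ne r 0 with hr | hr
    · exact ⟨1, 0, 0, by norm_num, by nlinarith [sq_nonneg (u 1)], by nlinarith [sq_nonneg (u 0)]⟩
    · refine ⟨-u 1 / r, u 0 / r, r, ?_, by field_simp, by field_simp⟩
      field_simp
      linarith
  have hr : r ^ 2 + u 2 ^ 2 = 1 := by
    rw [h0, h1] at hu2
    linear_combination hu2 - r ^ 2 * hpq
  set e₁ : E3 := !₂[p, q, 0] with he₁
  set e₂ : E3 := !₂[u 2 * q, -(u 2 * p), -r] with he₂
  have hn₁ : ‖e₁‖ = 1 := by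
    rw [EuclideanSpace.norm_eq, Real.sqrt_eq_one]
    simp [he₁, Fin.sum_univ_three, hpq]
  have hn₂ : ‖e₂‖ = 1 := by
    rw [EuclideanSpace.norm_eq, Real.sqrt_eq_one]
    simp [he₂, Fin.sum_univ_three]
    linear_combination hr + u 2 ^ 2 * hpq
  have hm₁ : e₁ ∈ (ℝ ∙ u)ᗮ := by
    rw [Submodule.mem_orthogonal_singleton_iff_inner_right, PiLp.inner_apply]
    simp [he₁, Fin.sum_univ_three, h0, h1]
    ring
  have hm₂ : e₂ ∈ (ℝ ∙ u)ᗮ := by
    rw [Submodule.mem_orthogonal_singleton_iff_inner_right, PiLp.inner_apply]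
    simp [he₂, Fin.sum_univ_three, h0, h1]
    linear_combination (u 2 * r) * hpq
  have h12 : ⟪(⟨e₁, hm₁⟩ : (ℝ ∙ u)ᗮ), ⟨e₂, hm₂⟩⟫ = 0 := by
    rw [Submodule.coe_inner, PiLp.inner_apply]
    simp [he₁, he₂, Fin.sum_univ_three]
    ring
  have : Fact (Module.finrank ℝ E3 = 2 + 1) := ⟨by simp⟩
  obtain ⟨hmp, hinj⟩ := frame (V := (ℝ ∙ u)ᗮ) (Submodule.finrank_orthogonal_span_singleton hu0)
    (a := ⟨e₁, hm₁⟩) (b := ⟨e₂, hm₂⟩) hn₁ hn₂ h12
  -- the plane picture of the base
  have hpq' : (p * p + q * q) = 1 := by linear_combination hpq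
  obtain ⟨hgp, hgi⟩ := frame (V := E2) (a := !₂[p, q]) (b := !₂[q, -p]) (by simp)
    (by rw [EuclideanSpace.norm_eq, Real.sqrt_eq_one]; simp [Fin.sum_univ_two, hpq])
    (by rw [EuclideanSpace.norm_eq, Real.sqrt_eq_one]; simp [Fin.sum_univ_two]; linarith)
    (by simp [PiLp.inner_apply, Fin.sum_univ_two]; ring)
  set g : E2 → ℝ × ℝ := (fun v : E2 => ((v 0, v 1) : ℝ × ℝ)) ∘ coords !₂[p, q] !₂[q, -p]
  have hg : ∀ v, g v = (p * v 0 + q * v 1, q * v 0 - p * v 1) := fun v => by
    simp [g, coords, PiLp.inner_apply, Fin.sum_univ_two]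
    constructor <;> ring
  have hgc : Continuous g := by
    rw [funext hg]; fun_prop
  have hpairInj : Function.Injective (fun v : E2 => ((v 0, v 1) : ℝ × ℝ)) := fun v v' h => by
    ext i
    fin_cases i
    · exact congrArg Prod.fst h
    · exact congrArg Prod.snd h
  have hA : IsCompact (g '' L) := hL.image hgc
  have hAv : volume (g '' L) = volume L := by
    rw [← (measurePreserving_pair.comp hgp).measure_preimage hA.measurableSet.nullMeasurableSet,
      (hpairInj.comp hgi).preimage_image]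
  have hAc : Convex ℝ (g '' L) := hLc.is_linear_image
    ⟨fun a b => by rw [hg, hg, hg]; ext <;> simp <;> ring,
     fun t a => by rw [hg, hg]; ext <;> simp <;> ring⟩
  -- the projection
  set T := (ℝ ∙ u)ᗮ.orthogonalProjectionOnto '' cyl L c d with hT
  have hTc : IsCompact T := (isCompact_cyl hL c d).image (ContinuousLinearMap.continuous _)
  set F := (fun v : E2 => ((v 0, v 1) : ℝ × ℝ)) ∘
    coords (⟨e₁, hm₁⟩ : (ℝ ∙ u)ᗮ) ⟨e₂, hm₂⟩ with hF
  have hFc : Continuous F :=
    (show Continuous fun v : E2 => ((v 0, v 1) : ℝ × ℝ) by fun_prop).comp (continuous_coords _ _)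
  have hFv : volume (F '' T) = volume T := by
    rw [← (measurePreserving_pair.comp hmp).measure_preimage
      (hTc.image hFc).measurableSet.nullMeasurableSet, (hpairInj.comp hinj).preimage_image]
  have hsub : (fun w : (ℝ × ℝ) × ℝ => (w.1.1, u 2 * w.1.2 + -r * w.2)) '' ((g '' L) ×ˢ Icc c d)
      ⊆ F '' T := by
    rintro _ ⟨⟨_, z⟩, ⟨⟨v, hv, rfl⟩, hz⟩, rfl⟩
    have hmem : (!₂[v 0, v 1, z] : E3) ∈ cyl L c d := by
      refine ⟨?_, by simpa using hz⟩
      convert hv using 1
      ext i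
      fin_cases i <;> simp
    refine ⟨_, mem_image_of_mem _ hmem, ?_⟩
    simp only [hF, Function.comp_apply, coords,
      Submodule.inner_orthogonalProjectionOnto_eq_of_mem_left, hg]
    simp [he₁, he₂, PiLp.inner_apply, Fin.sum_univ_three]
    constructor <;> ring
  have key : ∀ a ∈ L, ∀ b ∈ L,
      |u 2| * volume.real L + (|r| * (d - c)) * ((g b).1 - (g a).1) ≤ area (cyl L c d) u := by
    intro a ha b hb
    have hs := shear_area hA hAc (α := u 2) (β := -r) hcd (mem_image_of_mem g ha)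
      (mem_image_of_mem g hb)
    rw [hAv, abs_neg] at hs
    have hs' := hs.trans ((measure_mono hsub).trans_eq hFv)
    have hfin := hTc.measure_lt_top (μ := (volume : Measure (ℝ ∙ u)ᗮ))
    have h := ENNReal.toReal_mono hfin.ne hs'
    rw [ENNReal.toReal_add (by finiteness [hL.measure_lt_top (μ := (volume : Measure E2))])
      (by finiteness), ENNReal.toReal_mul, ENNReal.toReal_mul, ENNReal.toReal_ofReal (abs_nonneg _),
      ENNReal.toReal_ofReal (mul_nonneg (abs_nonneg _) (sub_nonneg.2 hcd))] at h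
    change _ ≤ area (cyl L c d) u at h
    have hd0 : 0 ≤ |r| * (d - c) := mul_nonneg (abs_nonneg _) (sub_nonneg.2 hcd)
    rw [ENNReal.toReal_ofReal'] at h
    rw [measureReal_def]
    linarith [mul_le_mul_of_nonneg_left (le_max_left ((g b).1 - (g a).1) 0) hd0]
  have hexp : (y 0 - x 0) * u 1 - (y 1 - x 1) * u 0 = r * ((g x).1 - (g y).1) := by
    rw [hg, hg, h0, h1]; ring
  rw [hexp, abs_mul]
  rcases le_total (g x).1 (g y).1 with hle | hle
  · rw [abs_of_nonpos (sub_nonpos.2 hle)]
    linarith [key x hx y hy]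
  · rw [abs_of_nonneg (sub_nonneg.2 hle)]
    linarith [key y hy x hx]

theorem projBody_finite (K : Set E3) : volume (projBody K) < ⊤ := by
  have h := PiLp.volume_preserving_ofLp (Fin 3)
  refine lt_of_le_of_lt (measure_mono (t := WithLp.ofLp ⁻¹'
    Icc (fun i => -area K (-EuclideanSpace.single i 1))
      (fun i => area K (EuclideanSpace.single i 1))) ?_) ?_
  · intro y hy
    refine ⟨fun i => ?_, fun i => ?_⟩
    · have := hy (-EuclideanSpace.single i 1) (by simp)
      simp [EuclideanSpace.inner_single_right] at this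
      simp
      linarith
    · simpa [EuclideanSpace.inner_single_right] using hy (EuclideanSpace.single i 1) (by simp)
  · rw [h.measure_preimage measurableSet_Icc.nullMeasurableSet]
    exact isCompact_Icc.measure_lt_top

/-- Projection volume of upright cylinders. -/
theorem eight_le {L : Set E2} (hL : IsCompact L) (hLc : Convex ℝ L) {c d : ℝ} (hcd : c ≤ d) :
    8 * volume.real (cyl L c d) ^ 2 ≤ volume.real (projBody (cyl L c d)) := by
  set h := d - c with hh
  set a := volume.real L with ha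
  have h0 : 0 ≤ h := sub_nonneg.2 hcd
  have ha0 : 0 ≤ a := measureReal_nonneg
  obtain ⟨hmp, -⟩ := frame (V := E2) (a := !₂[0, 1]) (b := !₂[-1, 0]) (by simp)
    (by simp [EuclideanSpace.norm_eq, Fin.sum_univ_two])
    (by simp [EuclideanSpace.norm_eq, Fin.sum_univ_two])
    (by simp [PiLp.inner_apply, Fin.sum_univ_two])
  have hD : IsCompact (h • (L - L)) := by
    rw [sub_eq_add_neg L L]
    exact (hL.add hL.neg).smul h
  set Z := coords (!₂[0, 1] : E2) !₂[-1, 0] ⁻¹' (h • (L - L))
  have hZm : MeasurableSet Z := hmp.measurable hD.measurableSet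
  have hsub : cyl Z (-a) a ⊆ projBody (cyl L c d) := by
    rintro v ⟨⟨_, ⟨y, hy, x, hx, rfl⟩, hv⟩, hv2⟩ u hu
    have e0 := congrArg (fun w : E2 => w 0) hv
    have e1 := congrArg (fun w : E2 => w 1) hv
    simp [coords, PiLp.inner_apply, Fin.sum_univ_two] at e0 e1
    refine le_trans ?_ (area_ge hL hLc hcd hu hx hy)
    rw [PiLp.inner_apply]
    simp only [RCLike.inner_apply, conj_trivial, Fin.sum_univ_three]
    rw [← hh, ← ha]
    have t1 : u 2 * v 2 ≤ |u 2| * a := le_trans (le_abs_self _) (by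
      rw [abs_mul]; gcongr; exact abs_le.2 hv2)
    have t2 := mul_le_mul_of_nonneg_left
      (le_abs_self ((y 0 - x 0) * u 1 - (y 1 - x 1) * u 0)) h0
    have t3 : u 0 * v 0 + u 1 * v 1 = h * ((y 0 - x 0) * u 1 - (y 1 - x 1) * u 0) := by
      linear_combination (-u 1) * e0 + u 0 * e1
    linarith
  have hvol := volume_cyl hZm (-a) a
  have hK := volume_cyl hL.measurableSet c d
  have hle := ENNReal.toReal_mono (projBody_finite _).ne (measure_mono (μ := volume) hsub)
  have hd4 := ENNReal.toReal_mono (a := 4 * volume L) (by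
    rw [sub_eq_add_neg L L]; exact (hL.add hL.neg).measure_lt_top.ne) (diff_area hL)
  rw [hvol, hmp.measure_preimage hD.measurableSet.nullMeasurableSet,
    Measure.addHaar_smul] at hle
  rw [measureReal_def, hK]
  simp [finrank_euclideanSpace, ← measureReal_def, ha0, h0, ← hh, ← ha] at hle hd4 ⊢
  nlinarith [mul_le_mul_of_nonneg_left hd4 (mul_nonneg ha0 (sq_nonneg h))]

end Vale.Agent.P237
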