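import Vale.Agent.P237.Frame
import Vale.Agent.P074.BM

/-!
The area of a sheared sum of a planar convex set and a segment, and the difference body.
-/

namespace Vale.Agent.P237

open MeasureTheory Set
open scoped RealInnerProductSpace ENNReal Pointwise

/-- The area of a planar convex set after squeezing one coordinate and adding a segment. -/
theorem shear_area {A : Set (ℝ × ℝ)} (hA : IsCompact A) (hAc : Convex ℝ A) {α β c d : ℝ}
    (hcd : c ≤ d) {lo hi : ℝ × ℝ} (hlo : lo ∈ A) (hhi : hi ∈ A) :
    ENNReal.ofReal |α| * volume A + ENNReal.ofReal (|β| * (d - c)) * ENNReal.ofReal (hi.1 - lo.1)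
      ≤ volume ((fun x : (ℝ × ℝ) × ℝ => (x.1.1, α * x.1.2 + β * x.2)) '' (A ×ˢ Icc c d)) := by
  set S := (fun x : (ℝ × ℝ) × ℝ => (x.1.1, α * x.1.2 + β * x.2)) '' (A ×ˢ Icc c d)
  have hS : IsCompact S := (hA.prod isCompact_Icc).image (by fun_prop)
  set P : Set ℝ := Prod.fst '' A
  have hP : IsCompact P := hA.image continuous_fst
  have hsub : Icc lo.1 hi.1 ⊆ P :=
    (hAc.linear_image (LinearMap.fst ℝ ℝ ℝ)).ordConnected.out (mem_image_of_mem _ hlo)
      (mem_image_of_mem _ hhi)
  have hsl : ∀ p, ENNReal.ofReal |α| * volume (Prod.mk p ⁻¹' A)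
      + P.indicator (fun _ => ENNReal.ofReal (|β| * (d - c))) p ≤ volume (Prod.mk p ⁻¹' S) := by
    intro p
    by_cases hp : p ∈ P
    · rw [indicator_of_mem hp]
      have hc : IsCompact (Prod.mk p ⁻¹' A) :=
        (hA.image continuous_snd).of_isClosed_subset (hA.isClosed.preimage (by fun_prop))
          fun q hq => ⟨(p, q), hq, rfl⟩
      have hne : (Prod.mk p ⁻¹' A).Nonempty := by
        obtain ⟨⟨a, b⟩, hab, rfl⟩ := hp
        exact ⟨b, hab⟩
      have key := Vale.Agent.P074.BM.one_dim_compact (s := (1 / 2 : ℝ)) (by norm_num) (by norm_num)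
        (hc.image (show Continuous fun q => 2 * α * q by fun_prop))
        ((isCompact_Icc (a := c) (b := d)).image (show Continuous fun z => 2 * β * z by fun_prop))
        (hne.image _) ((nonempty_Icc.2 hcd).image _) (S := Prod.mk p ⁻¹' S) (by
          rintro _ ⟨q, hq, rfl⟩ _ ⟨z, hz, rfl⟩
          exact ⟨((p, q), z), ⟨hq, hz⟩, by simp only; congr 1; ring⟩)
      have hv : ∀ (γ : ℝ) (T : Set ℝ),
          volume ((fun x => 2 * γ * x) '' T) = ENNReal.ofReal (2 * |γ|) * volume T := fun γ T => by
        rw [show (fun x => 2 * γ * x) '' T = (2 * γ) • T from rfl, Measure.addHaar_smul]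
        simp [abs_mul]
      refine le_trans (le_of_eq ?_) key
      rw [hv, hv, Real.volume_Icc, ← mul_assoc, ← mul_assoc, ← ENNReal.ofReal_mul (by norm_num),
        ← ENNReal.ofReal_mul (by norm_num), ← ENNReal.ofReal_mul (by positivity)]
      ring_nf
    · have : Prod.mk p ⁻¹' A = ∅ := eq_empty_of_forall_notMem fun q hq => hp ⟨(p, q), hq, rfl⟩
      simp [this, indicator_of_notMem hp]
  rw [Measure.volume_eq_prod, Measure.prod_apply hA.measurableSet,
    Measure.prod_apply hS.measurableSet]
  refine le_trans ?_ (lintegral_mono hsl)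
  rw [lintegral_add_left (Measurable.const_mul (measurable_measure_prodMk_left hA.measurableSet) _),
    lintegral_const_mul _ (measurable_measure_prodMk_left hA.measurableSet),
    lintegral_indicator hP.measurableSet, lintegral_const, Measure.restrict_apply_univ]
  gcongr
  rw [← Real.volume_Icc]
  exact measure_mono hsub

/-- The difference body has at least four times the area. -/
theorem diff_area {L : Set E2} (hL : IsCompact L) :
    4 * volume L ≤ volume (L - L) := by
  have hD : IsCompact (L - L) := by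
    rw [sub_eq_add_neg]; exact hL.add hL.neg
  have h := Vale.Agent.P074.BM.bm_euclidean (s := (1 / 2 : ℝ)) (by norm_num) (by norm_num) hL hL.neg
    (C := (1 / 2 : ℝ) • (L - L)) (hD.smul _) fun a ha b hb => ⟨a - -b, sub_mem_sub ha hb, by
      simp only [sub_neg_eq_add, smul_add]; norm_num⟩
  rw [Measure.measure_neg, ← ENNReal.rpow_add_of_nonneg _ _ (by norm_num) (by norm_num)] at h
  norm_num [Measure.addHaar_smul] at h
  calc 4 * volume L ≤ 4 * (ENNReal.ofReal (1 / 4) * volume (L - L)) := by gcongr
    _ = volume (L - L) := by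
      rw [← mul_assoc, ← ENNReal.ofReal_ofNat, ← ENNReal.ofReal_mul (by norm_num)]
      norm_num

end Vale.Agent.P237
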